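import Mathlib

/-!
# P325: star rounding for Unique Games instances on dense constraint graphs

A Unique Games instance: vertex set `V`, alphabet `Fin k`, a set `E` of ordered pairs, and the
constraint `a w = π v w (a v)` for every `(v, w) ∈ E`. If every vertex has at most `D` missing
in-neighbours, then for every labeling `a` some star labeling violates at most
`3 viol(a) + 2 D |E| / |V|` constraints.
-/

namespace Vale.Agent.Lib.P325.H61

open Finset

variable {V : Type} [Fintype V] [DecidableEq V] {k : ℕ}

/-- The number of constraints `(v, w) ∈ E` violated by the labeling `a`, that is with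
`a w ≠ π v w (a v)`. -/
def ugViolOn (E : Finset (V × V)) (π : V → V → Equiv.Perm (Fin k)) (a : V → Fin k) : ℕ :=
  ((Finset.univ : Finset (V × V)).filter
    (fun p => p ∈ E ∧ a p.2 ≠ π p.1 p.2 (a p.1))).card

/-- The star labeling with centre `u` and label `i`: a vertex `v` with `(u, v) ∈ E` gets the
label `π u v i` forced by the constraint from `u`, every other vertex gets `i`. -/
def starLab (E : Finset (V × V)) (π : V → V → Equiv.Perm (Fin k)) (u : V) (i : Fin k) :
    V → Fin k :=
  fun v => if (u, v) ∈ E then π u v i else i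

theorem ugViolOn_eq (E : Finset (V × V)) (π : V → V → Equiv.Perm (Fin k)) (a : V → Fin k) :
    ugViolOn E π a =
      ∑ v : V, ∑ w : V, (if (v, w) ∈ E ∧ a w ≠ π v w (a v) then 1 else 0) := by
  unfold ugViolOn
  rw [Finset.card_filter, Fintype.sum_prod_type]

theorem card_eq_sum (E : Finset (V × V)) :
    E.card = ∑ v : V, ∑ w : V, (if (v, w) ∈ E then 1 else 0) := by
  have h : E = (Finset.univ : Finset (V × V)).filter (fun p => p ∈ E) := by
    ext p
    simp
  rw [h, Finset.card_filter, Fintype.sum_prod_type]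
  refine Finset.sum_congr rfl fun v _ => Finset.sum_congr rfl fun w _ => ?_
  simp

/-- **Star rounding on dense constraint graphs.** -/
theorem star_rounding_dense (V : Type) [Fintype V] [DecidableEq V] [Nonempty V] (k : ℕ)
    (E : Finset (V × V)) (π : V → V → Equiv.Perm (Fin k)) (D : ℕ)
    (hD : ∀ v : V, ((Finset.univ : Finset V).filter (fun u => u ≠ v ∧ (u, v) ∉ E)).card ≤ D)
    (a : V → Fin k) :
    ∃ u : V, Fintype.card V * ugViolOn E π (starLab E π u (a u)) ≤
      3 * Fintype.card V * ugViolOn E π a + 2 * D * E.card := by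
  obtain ⟨χ, hχ⟩ : ∃ χ : V → V → ℕ,
      ∀ v w, χ v w = if (v, w) ∈ E ∧ a w ≠ π v w (a v) then 1 else 0 := ⟨_, fun _ _ => rfl⟩
  obtain ⟨e, he⟩ : ∃ e : V → V → ℕ, ∀ v w, e v w = if (v, w) ∈ E then 1 else 0 :=
    ⟨_, fun _ _ => rfl⟩
  obtain ⟨m, hm⟩ : ∃ m : V → V → ℕ, ∀ u v, m u v = if u ≠ v ∧ (u, v) ∉ E then 1 else 0 :=
    ⟨_, fun _ _ => rfl⟩
  have hviol : ugViolOn E π a = ∑ v : V, ∑ w : V, χ v w := by
    rw [ugViolOn_eq]
    exact Finset.sum_congr rfl fun v _ => Finset.sum_congr rfl fun w _ => (hχ v w).symm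
  have hcard : E.card = ∑ v : V, ∑ w : V, e v w := by
    rw [card_eq_sum]
    exact Finset.sum_congr rfl fun v _ => Finset.sum_congr rfl fun w _ => (he v w).symm
  have hmD : ∀ v : V, ∑ u : V, m u v ≤ D := by
    intro v
    have h := hD v
    rw [Finset.card_filter] at h
    calc ∑ u : V, m u v = ∑ u : V, (if u ≠ v ∧ (u, v) ∉ E then 1 else 0) :=
          Finset.sum_congr rfl fun u _ => hm u v
      _ ≤ D := h
  have hχ0 : ∀ v w, χ v w = 0 → ¬ ((v, w) ∈ E ∧ a w ≠ π v w (a v)) := by
    intro v w h0 hh
    rw [hχ, if_pos hh] at h0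
    exact one_ne_zero h0
  have hm0 : ∀ u v, m u v = 0 → ¬ (u ≠ v ∧ (u, v) ∉ E) := by
    intro u v h0 hh
    rw [hm, if_pos hh] at h0
    exact one_ne_zero h0
  have he1 : ∀ v w, e v w ≤ 1 := by
    intro v w
    rw [he]
    split_ifs <;> simp
  -- the star labeling agrees with `a` at `x` when the pair `(u, x)` is neither violated nor missing
  have hb : ∀ u x : V, χ u x = 0 → m u x = 0 → starLab E π u (a u) x = a x := by
    intro u x hx1 hx2
    unfold starLab
    by_cases hE : (u, x) ∈ E
    · rw [if_pos hE]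
      by_contra hne
      exact hχ0 u x hx1 ⟨hE, fun e => hne e.symm⟩
    · rw [if_neg hE]
      by_contra hne
      have hux : u ≠ x := by
        intro e
        apply hne
        rw [e]
      exact hm0 u x hx2 ⟨hux, hE⟩
  -- pointwise bound for a fixed centre `u`
  have hpt : ∀ u : V, ugViolOn E π (starLab E π u (a u)) ≤
      ∑ v : V, ∑ w : V, ((χ v w + χ u v + χ u w) + (e v w * m u v + e v w * m u w)) := by
    intro u
    rw [ugViolOn_eq]
    apply Finset.sum_le_sum
    intro v _
    apply Finset.sum_le_sum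
    intro w _
    by_cases h : (v, w) ∈ E ∧ starLab E π u (a u) w ≠ π v w (starLab E π u (a u) v)
    · rw [if_pos h]
      have hev : e v w = 1 := by rw [he, if_pos h.1]
      rw [hev, one_mul, one_mul]
      by_contra hcon
      have h1 : χ u v = 0 := by omega
      have h2 : χ u w = 0 := by omega
      have h3 : χ v w = 0 := by omega
      have h4 : m u v = 0 := by omega
      have h5 : m u w = 0 := by omega
      have hv := hb u v h1 h4
      have hw := hb u w h2 h5
      rw [hv, hw] at h
      exact hχ0 v w h3 h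
    · rw [if_neg h]
      exact Nat.zero_le _
  -- the three sums of violation indicators
  have hsum : ∑ u : V, ∑ v : V, ∑ w : V, (χ v w + χ u v + χ u w) =
      3 * Fintype.card V * ugViolOn E π a := by
    have e1 : ∑ u : V, ∑ v : V, ∑ _w : V, χ u v = Fintype.card V * ugViolOn E π a := by
      simp only [Finset.sum_const, Finset.card_univ, smul_eq_mul]
      rw [hviol, Finset.mul_sum]
      exact Finset.sum_congr rfl fun u _ => by rw [Finset.mul_sum]
    have e2 : ∑ u : V, ∑ _v : V, ∑ w : V, χ u w = Fintype.card V * ugViolOn E π a := by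
      simp only [Finset.sum_const, Finset.card_univ, smul_eq_mul]
      rw [hviol, Finset.mul_sum]
    have e3 : ∑ _u : V, ∑ v : V, ∑ w : V, χ v w = Fintype.card V * ugViolOn E π a := by
      simp only [Finset.sum_const, Finset.card_univ, smul_eq_mul]
      rw [hviol]
    simp only [Finset.sum_add_distrib]
    rw [e1, e2, e3]
    ring
  -- the sums of missing pairs
  have hmiss : ∑ u : V, ∑ v : V, ∑ w : V, (e v w * m u v + e v w * m u w) ≤ 2 * D * E.card := by
    have hswap : ∑ u : V, ∑ v : V, ∑ w : V, (e v w * m u v + e v w * m u w) =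
        ∑ v : V, ∑ w : V, ∑ u : V, (e v w * m u v + e v w * m u w) := by
      rw [Finset.sum_comm]
      exact Finset.sum_congr rfl fun v _ => Finset.sum_comm
    rw [hswap, hcard, Finset.mul_sum]
    apply Finset.sum_le_sum
    intro v _
    rw [Finset.mul_sum]
    apply Finset.sum_le_sum
    intro w _
    rw [Finset.sum_add_distrib, ← Finset.mul_sum, ← Finset.mul_sum]
    have h1 := Nat.mul_le_mul_left (e v w) (hmD v)
    have h2 := Nat.mul_le_mul_left (e v w) (hmD w)
    calc e v w * ∑ u : V, m u v + e v w * ∑ u : V, m u w ≤ e v w * D + e v w * D :=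
          Nat.add_le_add h1 h2
      _ = 2 * D * e v w := by ring
  have htot : ∑ u : V, ugViolOn E π (starLab E π u (a u)) ≤
      3 * Fintype.card V * ugViolOn E π a + 2 * D * E.card := by
    calc ∑ u : V, ugViolOn E π (starLab E π u (a u))
        ≤ ∑ u : V, ∑ v : V, ∑ w : V,
            ((χ v w + χ u v + χ u w) + (e v w * m u v + e v w * m u w)) :=
          Finset.sum_le_sum fun u _ => hpt u
      _ = ∑ u : V, ∑ v : V, ∑ w : V, (χ v w + χ u v + χ u w) +
            ∑ u : V, ∑ v : V, ∑ w : V, (e v w * m u v + e v w * m u w) := by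
          simp only [Finset.sum_add_distrib]
      _ ≤ 3 * Fintype.card V * ugViolOn E π a + 2 * D * E.card := by
          rw [hsum]
          exact Nat.add_le_add_left hmiss _
  have hle : ∑ u : V, Fintype.card V * ugViolOn E π (starLab E π u (a u)) ≤
      ∑ _u : V, (3 * Fintype.card V * ugViolOn E π a + 2 * D * E.card) := by
    rw [← Finset.mul_sum, Finset.sum_const, Finset.card_univ, smul_eq_mul]
    exact Nat.mul_le_mul_left _ htot
  obtain ⟨u, -, hu⟩ := Finset.exists_le_of_sum_le Finset.univ_nonempty hle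
  exact ⟨u, hu⟩

end Vale.Agent.Lib.P325.H61
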